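import Vale.Agent.P167.H135.Br.Main

/-!
# P167, general `q`, block Q-LAM (BR): `brU`
-/

namespace Vale.Agent.P167.H135.Br

open Finset Filter Topology Vale.Agent.P167.BR Vale.Agent.P167.FK
open Vale.Agent.P167.Enl
open Vale.Agent.P167.E6 (IsPolygon Encloses dir)
open Vale.Agent.P167.H825 (enl pdir)
open Vale.Agent.P167.H825.Q (Bc)
open Vale.Agent.P167.H825.Reg (s_REG_fw s_REG_tr)
open Vale.Agent.P167.H871 (Bd)
open Vale.Agent.P167.H601.LG (Spe SepL GeoN Typ)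
open Vale.Agent.P167.H718 (Dob poly_add encl_add bd_add)
open Vale.Agent.P167.H718.Lam (Pg Uni BrU)
open Vale.Agent.P167.H167.Q (Reg BcIn)

open Classical in
theorem sp_prod (U : Uni) (g : Option ℕ → ℝ) : ∏ x ∈ U.sp, g x =
    (∏ i ∈ cors U.p, g (some i)) * if U.IsDob then g none else 1 := by
  unfold Uni.sp
  by_cases h : U.IsDob
  · rw [if_pos h, if_pos h, prod_union, prod_singleton, prod_image]
    · rfl
    · exact fun x _ y _ h => Option.some_injective _ h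
    · rw [disjoint_singleton_right, mem_image]
      rintro ⟨x, -, hx⟩
      exact Option.some_ne_none x hx
  · rw [if_neg h, if_neg h, union_empty, mul_one, prod_image]
    · rfl
    · exact fun x _ y _ h => Option.some_injective _ h

theorem brU_fw (θ : ℝ) {l : ℕ} {p : ZMod l → ℤ × ℤ} {S₀ : Finset (ℤ × ℤ)} {bc : Bc} {tp : ℝ}
    (hp : IsPolygon p) (hS : Encloses p S₀) (hbc : bc = Bc.free ∨ bc = Bc.wired) (htp : tp = 0)
    (hc : pdir p 0 = pdir p (l - 1) + 1) : BrU θ ⟨l, p, S₀, bc, tp⟩ := by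
  have hl := hp.1
  have hl0 : NeZero l := ⟨by omega⟩
  obtain ⟨M, hM⟩ := exists_rad S₀
  obtain ⟨c, hc0, H⟩ := s_REG_fw hp hS hbc
  refine ⟨min c 1, max ((M : ℝ) + 1) l, lt_min hc0 one_pos, ?_⟩
  filter_upwards [H, eventually_gt_atTop 0] with n hn hn0 a τ η hSt
  obtain ⟨η', hd', hr'⟩ := hn ⌊tp * (n : ℝ)⌋₊ a
  have hn' : (0 : ℝ) < n := by exact_mod_cast hn0
  have ht0 : ⌊tp * (n : ℝ)⌋₊ = 0 := by rw [htp, zero_mul, Nat.floor_zero]
  have hdob : ¬ (⟨l, p, S₀, bc, tp⟩ : Uni).IsDob := by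
    rcases hbc with rfl | rfl <;> exact id
  have hk : bc.ka l n ⌊tp * (n : ℝ)⌋₊ = 0 ∨ bc.ka l n ⌊tp * (n : ℝ)⌋₊ = l * n := by
    rcases hbc with rfl | rfl
    · exact Or.inr rfl
    · exact Or.inl rfl
  have hB := hSt.bd
  have hs : ∀ j : ℕ, (fun i => qN p n ⌊tp * (n : ℝ)⌋₊ i + a) (j : ZMod (l * n)) =
      PN p n (j + 0) + a := fun j => by
    show qN p n ⌊tp * (n : ℝ)⌋₊ (j : ZMod (l * n)) + a = _
    rw [qN_nat hn0, ht0]
  refine ⟨η', ⟨hSt.tr, hB, hd'⟩, ?_, ?_, fun h => absurd h hdob, fun f => ?_⟩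
  · refine ok_pg hp hS hn0 hM (le_max_left _ _) (le_max_right _ _) hB ?_ (Or.inl ht0) ?_ hd'
      (hr'.mono (Int.floor_le_floor (mul_le_mul_of_nonneg_right (min_le_left _ _) hn'.le)))
    · refine Nat.floor_le_of_le ?_
      calc min c 1 * (n : ℝ) ≤ 1 * n := mul_le_mul_of_nonneg_right (min_le_right _ _) hn'.le
        _ = n := one_mul _
    · rcases hk with h | h
      · exact Or.inl h
      · exact Or.inr (Or.inl h)
  · exact ty_fw (q := fun i => qN p n ⌊tp * (n : ℝ)⌋₊ i + a) hp hn0 rfl hs (bd_add hB a) hk hc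
  · rw [sp_prod, if_neg hdob, if_neg hdob, mul_one, mul_one]
    exact prod_fw (q := fun i => qN p n ⌊tp * (n : ℝ)⌋₊ i + a) hp hn0 rfl hs (bd_add hB a) hk hc f

theorem brU_dob (θ : ℝ) {l : ℕ} {p : ZMod l → ℤ × ℤ} {S₀ : Finset (ℤ × ℤ)} {ia : ℕ} {ta tp : ℝ}
    (hp : IsPolygon p) (hS : Encloses p S₀) (t0 : 0 < tp) (t1 : tp < 1) (hi : 0 < ia) (hi' : ia < l)
    (a0 : 0 < ta) (a1 : ta < 1) (hdir : pdir p ia = 0) :
    BrU θ ⟨l, p, S₀, Bc.dob ia ta, tp⟩ := by
  have hl := hp.1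
  have hl0 : NeZero l := ⟨by omega⟩
  obtain ⟨M, hM⟩ := exists_rad S₀
  obtain ⟨c, hc0, H⟩ := s_REG_tr hp hS t0 t1 (bc := Bc.dob ia ta) ⟨hi, hi', a0, a1⟩
  have ev : ∀ {x : ℝ} (y : ℝ), 0 < x → ∀ᶠ n : ℕ in atTop, y < x * n := fun y hx =>
    (tendsto_natCast_atTop_atTop.const_mul_atTop hx).eventually_gt_atTop y
  obtain ⟨δ, hδ, d0, d1, d2, d3, d4⟩ : ∃ δ : ℝ, 0 < δ ∧ δ ≤ c ∧ 2 * δ ≤ tp ∧ 2 * δ ≤ 1 - tp ∧
      2 * δ ≤ ta ∧ 2 * δ ≤ 1 - ta := by
    refine ⟨min c (min (min tp (1 - tp)) (min ta (1 - ta)) / 2), ?_, min_le_left _ _, ?_, ?_, ?_,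
      ?_⟩
    · have : 0 < min (min tp (1 - tp)) (min ta (1 - ta)) := by
        rw [lt_min_iff, lt_min_iff, lt_min_iff]
        exact ⟨⟨t0, by linarith⟩, a0, by linarith⟩
      exact lt_min hc0 (by linarith)
    all_goals
      have h0 := min_le_right c (min (min tp (1 - tp)) (min ta (1 - ta)) / 2)
    · have := (min_le_left (min tp (1 - tp)) (min ta (1 - ta))).trans (min_le_left _ _)
      linarith
    · have := (min_le_left (min tp (1 - tp)) (min ta (1 - ta))).trans (min_le_right _ _)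
      linarith
    · have := (min_le_right (min tp (1 - tp)) (min ta (1 - ta))).trans (min_le_left _ _)
      linarith
    · have := (min_le_right (min tp (1 - tp)) (min ta (1 - ta))).trans (min_le_right _ _)
      linarith
  refine ⟨δ, max ((M : ℝ) + 1) l, hδ, ?_⟩
  filter_upwards [H, ev 1000 hδ] with n hn hnδ a τ η hSt
  obtain ⟨η', hd', hr'⟩ := hn a
  have hn0 : 0 < n := by
    rcases Nat.eq_zero_or_pos n with h | h
    · rw [h] at hnδ
      norm_num at hnδ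
    · exact h
  have hn' : (0 : ℝ) < n := by exact_mod_cast hn0
  obtain ⟨t, ht⟩ : ∃ t, t = ⌊tp * (n : ℝ)⌋₊ := ⟨_, rfl⟩
  obtain ⟨r, hr⟩ : ∃ r, r = ⌊ta * (n : ℝ)⌋₊ := ⟨_, rfl⟩
  obtain ⟨L, hL⟩ : ∃ L, L = ⌊δ * (n : ℝ)⌋₊ := ⟨_, rfl⟩
  have b1 : (t : ℝ) ≤ tp * n := by rw [ht]; exact Nat.floor_le (by positivity)
  have b2 : tp * n < t + 1 := by rw [ht]; exact Nat.lt_floor_add_one _
  have b3 : (r : ℝ) ≤ ta * n := by rw [hr]; exact Nat.floor_le (by positivity)
  have b4 : ta * n < r + 1 := by rw [hr]; exact Nat.lt_floor_add_one _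
  have b5 : (L : ℝ) ≤ δ * n := by rw [hL]; exact Nat.floor_le (by positivity)
  have b6 : δ * n < L + 1 := by rw [hL]; exact Nat.lt_floor_add_one _
  have g1 : L ≤ t := by
    have : (L : ℝ) ≤ (t : ℝ) := by nlinarith
    exact_mod_cast this
  have g2 : t + L ≤ n := by
    have : (((t + L : ℕ)) : ℝ) ≤ (n : ℝ) := by
      push_cast
      nlinarith
    exact_mod_cast this
  have g3 : L ≤ r := by
    have : (L : ℝ) ≤ (r : ℝ) := by nlinarith
    exact_mod_cast this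
  have g4 : r + L ≤ n := by
    have : (((r + L : ℕ)) : ℝ) ≤ (n : ℝ) := by
      push_cast
      nlinarith
    exact_mod_cast this
  have g0 : 1 ≤ L := by
    have : ((1 : ℕ) : ℝ) ≤ (L : ℝ) := by
      push_cast
      linarith
    exact_mod_cast this
  have h7 : n ≤ ia * n := Nat.le_mul_of_pos_left n hi
  have hka : Bc.ka l n t (.dob ia ta) + t = ia * n + r := by
    show kOf l n t ia ⌊ta * n⌋₊ + t = _
    unfold kOf
    rw [← hr, if_pos (by omega)]
    omega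
  have hdob : (⟨l, p, S₀, Bc.dob ia ta, tp⟩ : Uni).IsDob := trivial
  have hB : Bd (enl S₀ n : Set (ℤ × ℤ)) (l * n) (fun i => qN p n t (i : ZMod (l * n))) τ 1 := by
    rw [ht]
    exact hSt.bd
  have hs : ∀ j : ℕ, (fun i => qN p n t i + a) (j : ZMod (l * n)) =
      PN p n (j + t) + a := fun j => by
    show qN p n t (j : ZMod (l * n)) + a = _
    rw [qN_nat hn0]
  refine ⟨η', ⟨hSt.tr, hSt.bd, hd'⟩, ?_, ?_, fun _ => ?_, fun f => ?_⟩
  · have key := ok_pg (a := a) (k := Bc.ka l n t (.dob ia ta)) (η := η') (s := t) (σ := δ) hp hS hn0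
      hM (le_max_left _ (l : ℝ)) (le_max_right _ _) hB (by rw [← hL]; omega)
      (Or.inr ⟨by rw [← hL]; exact g1, by rw [← hL]; exact g2⟩)
      (Or.inr (Or.inr ⟨ia, r, hi, hi', by rw [← hL]; exact g3, by rw [← hL]; exact g4, hka⟩))
      (by rw [ht]; exact hd')
      (hr'.mono (Int.floor_le_floor (mul_le_mul_of_nonneg_right d0 hn'.le)))
    rw [ht] at key
    exact key
  · have key := ty_dob (θ := θ) (q := fun i => qN p n t i + a)
      (k := Bc.ka l n t (.dob ia ta)) hp hn0 rfl (show 0 < t by omega)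
      (by omega) hs (bd_add hB a) hi hi' (by omega) (by omega) hka
    rw [ht] at key
    exact key
  · have key := vec_u (q := fun i => qN p n t i + a) hp hn0 hs (bd_add hB a)
      (Bc.ka l n t (.dob ia ta))
    rw [hka, div_in (by omega), hdir, ht] at key
    exact key
  · rw [sp_prod, if_pos hdob, if_pos hdob]
    have key := prod_dob (q := fun i => qN p n t i + a) (k := Bc.ka l n t (.dob ia ta)) hp hn0 rfl (show 0 < t by omega)
      (by omega) hs (bd_add hB a) hi hi' (by omega) (by omega) hka f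
    rw [ht] at key
    exact key

/-- **[BR]** -/
theorem brU (θ : ℝ) {U : Uni} (hU : U.Ok) : BrU θ U := by
  obtain ⟨l, p, S₀, bc, tp⟩ := U
  obtain ⟨hp, hS, hb⟩ := hU
  cases bc with
  | free => exact brU_fw θ hp hS (Or.inl rfl) hb.1 hb.2
  | wired => exact brU_fw θ hp hS (Or.inr rfl) hb.1 hb.2
  | dob ia ta =>
    obtain ⟨t0, t1, hi, hi', a0, a1, -, h⟩ := hb
    exact brU_dob θ hp hS t0 t1 hi hi' a0 a1 h

end Vale.Agent.P167.H135.Br
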