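import Vale.Agent.P167.H601.LG.Sep
import Vale.Agent.P167.H825.Q.Frm

/-!
# P167, general `q`, block Q-LAM (BR): the special indices of an enlargement
-/

namespace Vale.Agent.P167.H135.Br

open Finset
open Vale.Agent.P167.Enl
open Vale.Agent.P167.E6 (IsPolygon Encloses dir)
open Vale.Agent.P167.H825 (enl pdir)
open Vale.Agent.P167.H871 (Bd vec_fin)
open Vale.Agent.P167.H601.LG (Spe)

variable {l N : ℕ} {p : ZMod l → ℤ × ℤ} {q : ZMod N → ℤ × ℤ} {n s k : ℕ}
  {a : ℤ × ℤ} {u : ℕ → ℤ} {D : Set (ℤ × ℤ)}

/-- The directions of the steps. -/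
theorem vec_u (hp : IsPolygon p) (hn : 0 < n)
    (hs : ∀ j : ℕ, q (j : ZMod N) = PN p n (j + s) + a)
    (hu : Bd D N (fun k => q (k : ZMod N)) u 1) (k : ℕ) :
    Top.vec (u k) = dir (pdir p ((k + s) / n)) := by
  have h2 := hu.step k
  rw [hs, hs, show k + 1 + s = k + s + 1 by ring, PN_succ hn hp] at h2
  have h3 : PN p n (k + s) + a + dir (pdir p ((k + s) / n)) =
      PN p n (k + s) + a + Top.vec (u k) := by
    rw [← h2]; ring
  exact (add_left_cancel h3).symm

theorem u_mod (hp : IsPolygon p) (hn : 0 < n)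
    (hs : ∀ j : ℕ, q (j : ZMod N) = PN p n (j + s) + a)
    (hu : Bd D N (fun k => q (k : ZMod N)) u 1) (k : ℕ) :
    u k % 4 = (((pdir p ((k + s) / n)).val : ℕ) : ℤ) := by
  have h := vec_u hp hn hs hu k
  rw [← vec_fin] at h
  have h1 := vec_eq_mod h
  have h2 := (pdir p ((k + s) / n)).isLt
  omega

/-- The step of the lifted direction is the step of the side. -/
theorem u_step (hp : IsPolygon p) (hn : 0 < n)
    (hs : ∀ j : ℕ, q (j : ZMod N) = PN p n (j + s) + a)
    (hu : Bd D N (fun k => q (k : ZMod N)) u 1) (k : ℕ) :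
    u (k + 1) ≠ u k ↔ pdir p ((k + 1 + s) / n) ≠ pdir p ((k + s) / n) := by
  have h1 := u_mod hp hn hs hu k
  have h2 := u_mod hp hn hs hu (k + 1)
  have h3 := hu.turn k
  rw [abs_le] at h3
  rw [not_iff_not, Fin.ext_iff]
  constructor <;> intro h <;> omega

/-- The change at a convex corner. -/
theorem u_one (hp : IsPolygon p) (hn : 0 < n)
    (hs : ∀ j : ℕ, q (j : ZMod N) = PN p n (j + s) + a)
    (hu : Bd D N (fun k => q (k : ZMod N)) u 1) {k : ℕ}
    (h : pdir p ((k + 1 + s) / n) = pdir p ((k + s) / n) + 1) : u (k + 1) - u k = 1 := by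
  have h1 := u_mod hp hn hs hu k
  have h2 := u_mod hp hn hs hu (k + 1)
  have h3 := hu.turn k
  rw [abs_le] at h3
  rw [h, Fin.val_add] at h2
  have h4 : ((1 : Fin 4) : ℕ) = 1 := rfl
  rw [h4] at h2
  have h5 := (pdir p ((k + s) / n)).isLt
  omega

/-- The sides which begin with a corner. -/
def cors (p : ZMod l → ℤ × ℤ) : Finset ℕ :=
  (range l).filter fun i => pdir p (i + l - 1) ≠ pdir p i

/-- The index of the corner `i`. -/
def ix (l n s i : ℕ) : ℕ := if i = 0 ∧ 0 < s then l * n - s else i * n - s

theorem pdir_l (i : ℕ) : pdir p (l + i) = pdir p i := by rw [add_comm, pdir_add]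

/-- **The special indices.** -/
theorem spe_iff (hp : IsPolygon p) (hn : 0 < n) (hN : N = l * n) (hsn : s < n)
    (hs : ∀ j : ℕ, q (j : ZMod N) = PN p n (j + s) + a)
    (hu : Bd D N (fun k => q (k : ZMod N)) u 1) {j : ℕ} (hj : j < N) :
    (0 < j ∧ u j ≠ u (j - 1)) ↔ (0 < j ∧ ∃ i ∈ cors p, ix l n s i = j) := by
  have hl := hp.1
  constructor
  · rintro ⟨h0, h1⟩
    refine ⟨h0, ?_⟩
    obtain ⟨m, rfl⟩ : ∃ m, j = m + 1 := ⟨j - 1, by omega⟩
    rw [Nat.add_sub_cancel] at h1
    have h2 := H601.LG.corner_dvd hp hn hs hu h1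
    rw [u_step hp hn hs hu] at h1
    obtain ⟨c, hc⟩ := h2
    have hc' : m + 1 + s = c * n := by rw [hc, mul_comm]
    have e1 : (m + 1 + s) / n = c := by rw [hc', Nat.mul_div_cancel _ hn]
    have hc0 : 0 < c := by
      rcases Nat.eq_zero_or_pos c with h | h
      · rw [h, zero_mul] at hc'
        omega
      · exact h
    have e2 : (m + s) / n = c - 1 := by
      have h3 : m + s = (n - 1) + (c - 1) * n := by
        obtain ⟨d, rfl⟩ : ∃ d, c = d + 1 := ⟨c - 1, by omega⟩
        rw [add_mul, one_mul] at hc'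
        rw [Nat.add_sub_cancel]
        omega
      rw [h3, Nat.add_mul_div_right _ _ hn, Nat.div_eq_of_lt (by omega), zero_add]
    rw [e1, e2] at h1
    have hcl : c ≤ l := by
      by_contra h6
      push Not at h6
      have h7 : (l + 1) * n ≤ c * n := Nat.mul_le_mul_right n h6
      rw [add_mul, one_mul] at h7
      omega
    rcases hcl.lt_or_eq with h | h
    · refine ⟨c, ?_, ?_⟩
      · unfold cors
        rw [mem_filter, mem_range]
        refine ⟨h, ?_⟩
        rw [show c + l - 1 = l + (c - 1) by omega, pdir_l]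
        exact Ne.symm h1
      · unfold ix
        rw [if_neg (by omega)]
        omega
    · have hs0 : 0 < s := by
        by_contra h3
        have h4 : s = 0 := by omega
        rw [h] at hc'
        omega
      refine ⟨0, ?_, ?_⟩
      · unfold cors
        rw [mem_filter, mem_range]
        refine ⟨by omega, ?_⟩
        rw [h] at h1
        rw [zero_add]
        have h5 : pdir p l = pdir p 0 := by
          have := pdir_l (p := p) 0
          rwa [add_zero] at this
        rw [h5] at h1
        exact Ne.symm h1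
      · unfold ix
        rw [if_pos ⟨rfl, hs0⟩]
        rw [h] at hc'
        omega
  · rintro ⟨h0, i, hi, hij⟩
    refine ⟨h0, ?_⟩
    obtain ⟨m, rfl⟩ : ∃ m, j = m + 1 := ⟨j - 1, by omega⟩
    rw [Nat.add_sub_cancel, u_step hp hn hs hu]
    unfold cors at hi
    rw [mem_filter, mem_range] at hi
    obtain ⟨hi1, hi2⟩ := hi
    -- `c` with `m + 1 + s = c n`
    obtain ⟨c, hc0, hc, hci⟩ : ∃ c, 0 < c ∧ m + 1 + s = c * n ∧ ((c = l ∧ i = 0) ∨ c = i) := by
      unfold ix at hij
      have hln : n ≤ l * n := Nat.le_mul_of_pos_left n (by omega)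
      split_ifs at hij with h
      · exact ⟨l, by omega, by omega, Or.inl ⟨rfl, h.1⟩⟩
      · have hi0 : 0 < i := by
          rcases Nat.eq_zero_or_pos i with h1 | h1
          · rw [h1, zero_mul] at hij
            omega
          · exact h1
        have hin : n ≤ i * n := Nat.le_mul_of_pos_left n hi0
        exact ⟨i, hi0, by omega, Or.inr rfl⟩
    have e1 : (m + 1 + s) / n = c := by rw [hc, Nat.mul_div_cancel _ hn]
    have e2 : (m + s) / n = c - 1 := by
      have h3 : m + s = (n - 1) + (c - 1) * n := by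
        obtain ⟨d, rfl⟩ : ∃ d, c = d + 1 := ⟨c - 1, by omega⟩
        rw [add_mul, one_mul] at hc
        rw [Nat.add_sub_cancel]
        omega
      rw [h3, Nat.add_mul_div_right _ _ hn, Nat.div_eq_of_lt (by omega), zero_add]
    rw [e1, e2]
    rcases hci with ⟨rfl, rfl⟩ | rfl
    · rw [zero_add] at hi2
      have h5 : pdir p c = pdir p 0 := by
        have := pdir_l (p := p) 0
        rwa [add_zero] at this
      rw [h5]
      exact hi2.symm
    · rw [show c + l - 1 = l + (c - 1) by omega, pdir_l] at hi2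
      exact hi2.symm

/-- The point of the index of a corner. -/
theorem q_ix (hp : IsPolygon p) (hn : 0 < n) (hN : N = l * n) (hsn : s < n)
    (hs : ∀ j : ℕ, q (j : ZMod N) = PN p n (j + s) + a) {i : ℕ} :
    q ((ix l n s i : ℕ) : ZMod N) = (n : ℤ) • p (i : ZMod l) + a := by
  have hl := hp.1
  have hln : n ≤ l * n := Nat.le_mul_of_pos_left n (by omega)
  rw [hs]
  congr 1
  unfold ix
  split_ifs with h
  · rw [Nat.sub_add_cancel (by omega), show l * n = l * n + 0 by ring, PN_lin hn hn, h.1,
      ZMod.natCast_self]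
    simp
  · rcases Nat.eq_zero_or_pos i with h1 | h1
    · have hs0 : s = 0 := by
        by_contra h2
        exact h ⟨h1, by omega⟩
      rw [h1, hs0, zero_mul]
      have := PN_lin (p := p) hn (i := 0) (j := 0) hn
      rw [zero_mul, zero_add] at this
      simpa using this
    · have hin : n ≤ i * n := Nat.le_mul_of_pos_left n h1
      rw [Nat.sub_add_cancel (by omega), show i * n = i * n + 0 by ring, PN_lin hn hn]
      simp

theorem ix_lt (hl : 1 ≤ l) (hsn : s < n) {i : ℕ} (hi : i < l) : ix l n s i < l * n := by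
  have hln : n ≤ l * n := Nat.le_mul_of_pos_left n (by omega)
  have h1 : (i + 1) * n ≤ l * n := Nat.mul_le_mul_right n hi
  rw [add_mul, one_mul] at h1
  unfold ix
  split_ifs with h <;> omega

theorem ix_inj (hsn : s < n) {i j : ℕ} (hi : i < l) (hj : j < l) (h : ix l n s i = ix l n s j) :
    i = j := by
  have key : ∀ x y : ℕ, x < y → x * n + n ≤ y * n := by
    intro x y hxy
    have h7 : (x + 1) * n ≤ y * n := Nat.mul_le_mul_right n hxy
    rwa [add_mul, one_mul] at h7
  by_contra hne
  unfold ix at h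
  split_ifs at h with h1 h2 h2
  · omega
  · have := key j l hj
    rcases Nat.eq_zero_or_pos j with h3 | h3
    · exact h2 ⟨h3, h1.2⟩
    · have := key 0 j h3
      omega
  · have := key i l hi
    rcases Nat.eq_zero_or_pos i with h3 | h3
    · exact h1 ⟨h3, h2.2⟩
    · have := key 0 i h3
      omega
  · have hi' : i = 0 → s = 0 := fun h3 => by
      by_contra h4
      exact h1 ⟨h3, by omega⟩
    have hj' : j = 0 → s = 0 := fun h3 => by
      by_contra h4
      exact h2 ⟨h3, by omega⟩
    rcases Nat.lt_or_gt_of_ne hne with h3 | h3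
    · have := key i j h3
      rcases Nat.eq_zero_or_pos i with h4 | h4
      · have := hi' h4
        rw [h4, zero_mul] at h
        omega
      · have := key 0 i h4
        omega
    · have := key j i h3
      rcases Nat.eq_zero_or_pos j with h4 | h4
      · have := hj' h4
        rw [h4, zero_mul] at h
        omega
      · have := key 0 j h4
        omega

end Vale.Agent.P167.H135.Br
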