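import Vale.Agent.P167.H135.Br.Idx
import Vale.Agent.P167.H718.Lam.Br
import Vale.Agent.P167.H825.Reg.Tr

/-!
# P167, general `q`, block Q-LAM (BR): the enlargements of unit polygons are regular
-/

namespace Vale.Agent.P167.H135.Br

open Finset Filter Topology Vale.Agent.P167.BR Vale.Agent.P167.FK
open Vale.Agent.P167.Enl
open Vale.Agent.P167.E6 (IsPolygon Encloses dir)
open Vale.Agent.P167.H825 (enl pdir)
open Vale.Agent.P167.H825.Q (Bc)
open Vale.Agent.P167.H825.Reg (s_REG_fw s_REG_tr)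
open Vale.Agent.P167.H871 (Bd)
open Vale.Agent.P167.H601.LG (Spe SepL GeoN Typ geoN_enl sepL_enl)
open Vale.Agent.P167.H718 (Dob poly_add encl_add bd_add)
open Vale.Agent.P167.H718.Lam (Pg Uni BrU)
open Vale.Agent.P167.H167.Q (Reg BcIn)

variable {l : ℕ} {p : ZMod l → ℤ × ℤ} {S₀ : Finset (ℤ × ℤ)} {n s k : ℕ} {a : ℤ × ℤ} {τ : ℕ → ℤ}
  {η : Cfg} {θ σ R : ℝ}

/-- The enlargement. -/
noncomputable def PG {l : ℕ} (p : ZMod l → ℤ × ℤ) (S₀ : Finset (ℤ × ℤ)) (n s : ℕ) (a : ℤ × ℤ)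
    (k : ℕ) (τ : ℕ → ℤ) (η : Cfg) : Pg :=
  ⟨l * n, fun i => qN p n s i + a, (enl S₀ n).image (· + a), k, τ, η⟩

theorem exists_rad (S₀ : Finset (ℤ × ℤ)) : ∃ M : ℕ, ∀ w ∈ S₀, nm w ≤ M := by
  refine ⟨S₀.sup fun w => (nm w).toNat, fun w hw => ?_⟩
  have h := Finset.le_sup (f := fun w : ℤ × ℤ => (nm w).toNat) hw
  have h2 := Int.self_le_toNat (nm w)
  exact h2.trans (by exact_mod_cast h)

theorem dia_enl {M : ℕ} (hn : 0 < n) (hM : ∀ w ∈ S₀, nm w ≤ M) {v : ℤ × ℤ}
    (hv : v ∈ (enl S₀ n).image (· + a)) : nm (v - a) ≤ (M + 1) * n := by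
  obtain ⟨w, hw, rfl⟩ := mem_image.1 hv
  rw [mem_enl_div hn] at hw
  have h1 := hM _ hw
  have hn' : (0 : ℤ) < n := by exact_mod_cast hn
  have e1 := Int.mul_ediv_add_emod w.1 n
  have e2 := Int.mul_ediv_add_emod w.2 n
  have e3 := Int.emod_nonneg w.1 hn'.ne'
  have e4 := Int.emod_nonneg w.2 hn'.ne'
  have e5 := Int.emod_lt_of_pos w.1 hn'
  have e6 := Int.emod_lt_of_pos w.2 hn'
  rw [H632.nm_le] at h1 ⊢
  obtain ⟨a1, a2, a3, a4⟩ := h1
  dsimp only at a1 a2 a3 a4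
  have b1 : (n : ℤ) * (w.1 / n) ≤ n * M := mul_le_mul_of_nonneg_left a2 hn'.le
  have b2 : (n : ℤ) * (-M) ≤ n * (w.1 / n) := mul_le_mul_of_nonneg_left a1 hn'.le
  have b3 : (n : ℤ) * (w.2 / n) ≤ n * M := mul_le_mul_of_nonneg_left a4 hn'.le
  have b4 : (n : ℤ) * (-M) ≤ n * (w.2 / n) := mul_le_mul_of_nonneg_left a3 hn'.le
  simp only [add_sub_cancel_right]
  refine ⟨?_, ?_, ?_, ?_⟩ <;> nlinarith

/-- **Regularity.** -/
theorem ok_pg (hp : IsPolygon p) (hS : Encloses p S₀) (hn : 0 < n) {M : ℕ}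
    (hM : ∀ w ∈ S₀, nm w ≤ M) (hR1 : (M : ℝ) + 1 ≤ R) (hR2 : (l : ℝ) ≤ R)
    (hτ : Bd (enl S₀ n : Set (ℤ × ℤ)) (l * n) (fun i => qN p n s (i : ZMod (l * n))) τ 1)
    (hL : ⌊σ * n⌋₊ ≤ n) (ht : s = 0 ∨ (⌊σ * n⌋₊ ≤ s ∧ s + ⌊σ * n⌋₊ ≤ n))
    (hk : k = 0 ∨ k = l * n ∨ ∃ ia r : ℕ, 0 < ia ∧ ia < l ∧ ⌊σ * n⌋₊ ≤ r ∧ r + ⌊σ * n⌋₊ ≤ n ∧
      k + s = ia * n + r)
    (hd : Dob η ((enl S₀ n).image (· + a)) (fun i => qN p n s i + a) k)
    (hreg : Reg ⌊σ * n⌋ ((enl S₀ n).image (· + a)) η) : (PG p S₀ n s a k τ η).Ok n σ R := by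
  have hl := hp.1
  have hl0 : NeZero l := ⟨by omega⟩
  have hq := poly_add (isPolygon_qN hn hp s) a
  have hD := encl_add (encloses_qN hn hp hS s) a
  have hB := bd_add hτ a
  have hn' : (0 : ℝ) < n := by exact_mod_cast hn
  have hs : ∀ j : ℕ, (fun i => qN p n s i + a) (j : ZMod (l * n)) = PN p n (j + s) + a :=
    fun j => by
      show qN p n s (j : ZMod (l * n)) + a = _
      rw [qN_nat hn]
  have hsep : SepL ⌊σ * n⌋₊ (l * n) τ k := sepL_enl (q := fun i => qN p n s i + a) hp hn rfl hL hs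
    hB ht hk
  refine ⟨geoN_enl hp hS hn hq hD hB, hq, hD, hB, hsep, ?_, hd, hreg, ⟨a, fun v hv => ?_⟩, ?_⟩
  · show k ≤ l * n
    rcases hk with h | h | ⟨ia, r, h1, h2, h3, h4, h5⟩
    · omega
    · omega
    · have h6 : (ia + 1) * n ≤ l * n := Nat.mul_le_mul_right n h2
      rw [add_mul, one_mul] at h6
      omega
  · have h1 := dia_enl hn hM hv
    have h2 : (nm (v - a) : ℝ) ≤ ((M : ℝ) + 1) * n := by exact_mod_cast h1
    exact h2.trans (mul_le_mul_of_nonneg_right hR1 hn'.le)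
  · show (((l * n : ℕ)) : ℝ) ≤ R * n
    push_cast
    exact mul_le_mul_of_nonneg_right hR2 hn'.le

section idx

variable {N : ℕ} {q : ZMod N → ℤ × ℤ} {D : Set (ℤ × ℤ)}

theorem pdir_per : pdir p l = pdir p 0 := by
  have := pdir_l (p := p) 0
  rwa [add_zero] at this

theorem ty_fw (hp : IsPolygon p) (hn : 0 < n) (hN : N = l * n)
    (hs : ∀ j : ℕ, q (j : ZMod N) = PN p n (j + 0) + a)
    (hu : Bd D N (fun k => q (k : ZMod N)) τ 1) (hk : k = 0 ∨ k = N)
    (hc : pdir p 0 = pdir p (l - 1) + 1) : Typ N k τ ((θ - Real.pi) / 2) θ := by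
  have hl := hp.1
  have hln : n ≤ l * n := Nat.le_mul_of_pos_left n (by omega)
  refine ⟨by omega, fun _ => ?_, fun h1 h2 => absurd hk (by omega), rfl⟩
  have h := u_one hp hn hs hu (k := N - 1) (by
    have e1 : (N - 1 + 1 + 0) / n = l := by
      rw [show N - 1 + 1 + 0 = l * n by omega, Nat.mul_div_cancel _ hn]
    have e2 : (N - 1 + 0) / n = l - 1 := by
      have h3 : N - 1 + 0 = (n - 1) + (l - 1) * n := by
        obtain ⟨d, rfl⟩ : ∃ d, l = d + 1 := ⟨l - 1, by omega⟩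
        rw [Nat.add_sub_cancel, hN, add_mul, one_mul]
        omega
      rw [h3, Nat.add_mul_div_right _ _ hn, Nat.div_eq_of_lt (by omega), zero_add]
    rw [e1, e2, pdir_per, hc])
  rwa [Nat.sub_add_cancel (by omega)] at h

theorem div_in {ia r : ℕ} (hr : r < n) : (ia * n + r) / n = ia := by
  have hn : 0 < n := by omega
  rw [add_comm, Nat.add_mul_div_right _ _ hn, Nat.div_eq_of_lt hr, zero_add]

/-- No corner in the interior of a side. -/
theorem u_flat (hp : IsPolygon p) (hn : 0 < n)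
    (hs : ∀ j : ℕ, q (j : ZMod N) = PN p n (j + s) + a)
    (hu : Bd D N (fun k => q (k : ZMod N)) τ 1) {j ia r : ℕ} (hj : 0 < j) (h0 : 0 < r) (hr : r < n)
    (h : j + s = ia * n + r) : τ j = τ (j - 1) := by
  by_contra hne
  obtain ⟨m, rfl⟩ : ∃ m, j = m + 1 := ⟨j - 1, by omega⟩
  rw [Nat.add_sub_cancel] at hne
  rw [← ne_eq, u_step hp hn hs hu] at hne
  apply hne
  rw [h, div_in hr, show m + s = ia * n + (r - 1) by omega, div_in (by omega)]

theorem ty_dob (hp : IsPolygon p) (hn : 0 < n) (hN : N = l * n) (h0 : 0 < s) (hsn : s < n)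
    (hs : ∀ j : ℕ, q (j : ZMod N) = PN p n (j + s) + a)
    (hu : Bd D N (fun k => q (k : ZMod N)) τ 1) {ia r : ℕ} (hi : 0 < ia) (hi' : ia < l)
    (hr : 0 < r) (hrn : r < n) (hk : k + s = ia * n + r) : Typ N k τ ((θ - Real.pi) / 2) θ := by
  have hl := hp.1
  have h6 : (ia + 1) * n ≤ l * n := Nat.mul_le_mul_right n hi'
  rw [add_mul, one_mul] at h6
  have h7 : n ≤ ia * n := Nat.le_mul_of_pos_left n hi
  refine ⟨by omega, fun h => absurd h (by omega), fun h1 h2 => ⟨?_, ?_⟩, rfl⟩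
  · exact u_flat hp hn hs hu (ia := l) (r := s) (by omega) h0 hsn (by omega)
  · exact u_flat hp hn hs hu h1 hr hrn hk

open Classical in
theorem prod_fw (hp : IsPolygon p) (hn : 0 < n) (hN : N = l * n)
    (hs : ∀ j : ℕ, q (j : ZMod N) = PN p n (j + 0) + a)
    (hu : Bd D N (fun k => q (k : ZMod N)) τ 1) (hk : k = 0 ∨ k = N)
    (hc : pdir p 0 = pdir p (l - 1) + 1) (f : ℤ × ℤ → ℝ) :
    ∏ j ∈ (range N).filter (Spe τ k), f (q (j : ZMod N)) =
      ∏ i ∈ cors p, f ((n : ℤ) • p (i : ZMod l) + a) := by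
  have hl := hp.1
  have h0 : 0 ∈ cors p := by
    unfold cors
    rw [mem_filter, mem_range]
    refine ⟨by omega, ?_⟩
    rw [zero_add, hc]
    intro h
    have h1 : (0 : Fin 4) = 1 := add_left_cancel (a := pdir p (l - 1)) (by rw [add_zero]; exact h)
    exact absurd h1 (by decide)
  have hix0 : ix l n 0 0 = 0 := by simp [ix]
  have e : (range N).filter (Spe τ k) = (cors p).image (ix l n 0) := by
    ext j
    rw [mem_filter, mem_range, mem_image]
    constructor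
    · rintro ⟨h1, h2 | h2 | h2⟩
      · exact ⟨0, h0, by rw [hix0, h2]⟩
      · exact ⟨0, h0, by rw [hix0]; omega⟩
      · exact ((spe_iff hp hn hN hn hs hu h1).1 h2).2
    · rintro ⟨i, h1, h2⟩
      have h3 : i < l := by
        unfold cors at h1
        exact mem_range.1 (mem_filter.1 h1).1
      have h4 : j < N := by rw [hN, ← h2]; exact ix_lt (by omega) hn h3
      refine ⟨h4, ?_⟩
      rcases Nat.eq_zero_or_pos j with h5 | h5
      · exact Or.inl h5
      · exact Or.inr (Or.inr ((spe_iff hp hn hN hn hs hu h4).2 ⟨h5, i, h1, h2⟩))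
  rw [e, prod_image]
  · exact prod_congr rfl fun i _ => by rw [q_ix hp hn hN hn hs]
  · intro i hi j hj h
    have h1 : i < l := by
      have := mem_coe.1 hi
      unfold cors at this
      exact mem_range.1 (mem_filter.1 this).1
    have h2 : j < l := by
      have := mem_coe.1 hj
      unfold cors at this
      exact mem_range.1 (mem_filter.1 this).1
    exact ix_inj hn h1 h2 h

open Classical in
theorem prod_dob (hp : IsPolygon p) (hn : 0 < n) (hN : N = l * n) (h0 : 0 < s) (hsn : s < n)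
    (hs : ∀ j : ℕ, q (j : ZMod N) = PN p n (j + s) + a)
    (hu : Bd D N (fun k => q (k : ZMod N)) τ 1) {ia r : ℕ} (hi : 0 < ia) (hi' : ia < l)
    (hr : 0 < r) (hrn : r < n) (hk : k + s = ia * n + r) (f : ℤ × ℤ → ℝ) :
    ∏ j ∈ (range N).filter (Spe τ k), f (q (j : ZMod N)) =
      (∏ i ∈ cors p, f ((n : ℤ) • p (i : ZMod l) + a)) * f (q 0) * f (q (k : ZMod N)) := by
  have hl := hp.1
  have h6 : (ia + 1) * n ≤ l * n := Nat.mul_le_mul_right n hi'
  rw [add_mul, one_mul] at h6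
  have h7 : n ≤ ia * n := Nat.le_mul_of_pos_left n hi
  have hcl : ∀ i ∈ cors p, i < l := fun i h => by
    unfold cors at h
    exact mem_range.1 (mem_filter.1 h).1
  have hflat : τ k = τ (k - 1) := u_flat hp hn hs hu (by omega) hr hrn hk
  have hpos : ∀ i ∈ cors p, 0 < ix l n s i := by
    intro i h1
    have h2 := hcl i h1
    unfold ix
    split_ifs with h
    · have : n ≤ l * n := Nat.le_mul_of_pos_left n (by omega)
      omega
    · have h3 : 0 < i := by
        rcases Nat.eq_zero_or_pos i with h3 | h3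
        · exact absurd ⟨h3, h0⟩ h
        · exact h3
      have : n ≤ i * n := Nat.le_mul_of_pos_left n h3
      omega
  have hN' : ∀ i ∈ cors p, ix l n s i < N := fun i h1 => by
    rw [hN]
    exact ix_lt (by omega) hsn (hcl i h1)
  have e : (range N).filter (Spe τ k) = insert 0 (insert k ((cors p).image (ix l n s))) := by
    ext j
    rw [mem_filter, mem_range, mem_insert, mem_insert, mem_image]
    constructor
    · rintro ⟨h1, h2 | h2 | h2⟩
      · exact Or.inl h2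
      · exact Or.inr (Or.inl h2)
      · exact Or.inr (Or.inr ((spe_iff hp hn hN hsn hs hu h1).1 h2).2)
    · rintro (h2 | h2 | ⟨i, h1, h2⟩)
      · exact ⟨by omega, Or.inl h2⟩
      · exact ⟨by omega, Or.inr (Or.inl h2)⟩
      · have h4 : j < N := by rw [← h2]; exact hN' i h1
        exact ⟨h4, Or.inr (Or.inr ((spe_iff hp hn hN hsn hs hu h4).2
          ⟨by rw [← h2]; exact hpos i h1, i, h1, h2⟩))⟩
  have n1 : k ∉ (cors p).image (ix l n s) := by
    intro h
    obtain ⟨i, h1, h2⟩ := mem_image.1 h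
    exact ((spe_iff hp hn hN hsn hs hu (j := k) (by omega)).2 ⟨by omega, i, h1, h2⟩).2 hflat
  have n2 : 0 ∉ insert k ((cors p).image (ix l n s)) := by
    rw [mem_insert, mem_image]
    rintro (h | ⟨i, h1, h2⟩)
    · omega
    · have := hpos i h1
      omega
  rw [e, prod_insert n2, prod_insert n1, prod_image]
  · rw [Nat.cast_zero]
    rw [prod_congr rfl fun i _ => by rw [q_ix hp hn hN hsn hs]]
    ring
  · intro i hi j hj h
    exact ix_inj hsn (hcl i (mem_coe.1 hi)) (hcl j (mem_coe.1 hj)) h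

end idx

end Vale.Agent.P167.H135.Br
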